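import Claimed.Agent.R252.Base.Lang

/-!
# ROW 252 (S0492), unit S4B (post BP-252-S4B, sub-architect helper127, under helper269): THE TANGENT DIAGONAL, ABSTRACT LAYER  (04-critical-paths.tex l.351-475).      No `sorry`.

Object-free: nothing here knows what a problem, a path or an atlas is.  The records (sample, path, atlas) are instantiated by `S4/Sample`, `S4/Guard`.
* `k4b_guard0`, `k4b_guard`, `k4b_guard_tmp` : **L a03:finite-guard.**  `Φ k K p y` = "the one-scale object `y` is an output with slack `K` and exponent parameter `p`" (monotone in `K`, `N^{Cσ}`-stable under a change of `p` by `σ`);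
  `G` = compact set of buffered gains.  If for no `p ∈ G` there is a sequence-level output, then for EVERY subpower `K` (e.g. `(K_path log N₀)^n`) eventually there is NO one-scale output with slack `K k` and parameter in `G`.
* `K4bNum`, `K4bNum.Ok n` : (a03:mass-diagonal) + (a03:slack-diagonal) + `n ≤ N₀^ε`;   `k4b_num_ev` : eventually true along every exact sequence;   `k4b_diagonal` : the choice of the samples (order `n → exact problem → N₀`).
* `k4bRes` : the diagonal resolution `N = N₀^{ε_n}` as a `KbRes`;   `k4b_subp_slack`, `k4b_subp_fixed`, `k4b_subp_Kp`, `k4b_subp_log` : `(K_path log N₀)^n`, fixed powers, `K_path`, `log N₀` are `KbSubP` on the diagonal.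
* `k4b_exp` : exponents known with error `ε_n/(n+1)` in original units become `KbExp` in tangent units.      * `k4b_loss` : `G_n` losses of relative size `1/log N₀` cost `≤ 1/(n+1)`.
* `k4b_complexity` : `C (1+M)^d ≤ 2^{(M+n)²}` for all `M ≥ 1` once `n ≥ n₀(C,d)` (a03:complexity-guard).
-/

set_option autoImplicit false

namespace Claimed.Agent.R252

open Filter Topology
open Claimed.Agent.R255 (uf ulim UBdd)

noncomputable section

/-! ## 1. The finite-sample exclusion -/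

/-- the guard without exponent parameters -/
theorem k4b_guard0 (R : KbRes) {α : ℕ → Type*} (Y0 : ∀ k, α k) (Φ : ∀ k, ℝ → α k → Prop)
    (hm : ∀ k a b y, a ≤ b → Φ k a y → Φ k b y)
    (hex : ¬ ∃ Y : ∀ k, α k, ∀ τ : ℝ, 0 < τ → ∀ᶠ k in uf, Φ k (R.N k ^ τ) (Y k))
    (K : ℕ → ℝ) (hK : KbSubP R K) : ∀ᶠ k in uf, ¬ ∃ y, Φ k (K k) y := by
  classical
  rcases Claimed.Agent.R255.uf_em (fun k => ∃ y, Φ k (K k) y) with h | h
  · exfalso
    refine hex ⟨fun k => if hk : ∃ y, Φ k (K k) y then hk.choose else Y0 k, fun τ hτ => ?_⟩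
    filter_upwards [h, hK τ hτ] with k hk hk2
    simp only [dif_pos hk]
    exact hm k _ _ _ hk2.2 hk.choose_spec
  · exact h

/-- ultralimits in compact sets -/
theorem k4b_ulim_compact {X : Type*} [TopologicalSpace X] {G : Set X} (hG : IsCompact G) (p : ℕ → X) (hp : ∀ᶠ k in uf, p k ∈ G) :
    ∃ q ∈ G, Tendsto p uf (𝓝 q) := by
  have h1 : ((Ultrafilter.map p (hyperfilter ℕ) : Ultrafilter X) : Filter X) ≤ 𝓟 G := by
    rw [Ultrafilter.coe_map, le_principal_iff]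
    exact hp
  obtain ⟨q, hq, hle⟩ := hG.ultrafilter_le_nhds _ h1
  exact ⟨q, hq, by rwa [Ultrafilter.coe_map] at hle⟩

/-- **L a03:finite-guard**, abstract form -/
theorem k4b_guard (R : KbRes) {α : ℕ → Type*} {X : Type*} [PseudoMetricSpace X] (Y0 : ∀ k, α k) (Φ : ∀ k, ℝ → X → α k → Prop)
    (hm : ∀ k a b p y, a ≤ b → Φ k a p y → Φ k b p y) (C : ℝ)
    (hst : ∀ k a p p' σ y, 0 < σ → dist p p' ≤ σ → Φ k a p y → Φ k (a * R.N k ^ (C * σ)) p' y)
    (G : Set X) (hG : IsCompact G)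
    (hex : ∀ p ∈ G, ¬ ∃ Y : ∀ k, α k, ∀ τ : ℝ, 0 < τ → ∀ᶠ k in uf, Φ k (R.N k ^ τ) p (Y k))
    (K : ℕ → ℝ) (hK : KbSubP R K) : ∀ᶠ k in uf, ¬ ∃ p ∈ G, ∃ y, Φ k (K k) p y := by
  classical
  have := Claimed.Agent.R255.uf_neBot
  rcases Claimed.Agent.R255.uf_em (fun k => ∃ p ∈ G, ∃ y, Φ k (K k) p y) with h | h
  · exfalso
    obtain ⟨k0, p0, hp0, -⟩ := h.exists
    set P : ℕ → X := fun k => if hk : ∃ p ∈ G, ∃ y, Φ k (K k) p y then hk.choose else p0 with hP
    have hPG : ∀ k, P k ∈ G := by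
      intro k
      by_cases hk : ∃ p ∈ G, ∃ y, Φ k (K k) p y
      · simp only [hP, dif_pos hk]; exact hk.choose_spec.1
      · simp only [hP, dif_neg hk]; exact hp0
    have hPy : ∀ᶠ k in uf, ∃ y, Φ k (K k) (P k) y := by
      filter_upwards [h] with k hk
      simp only [hP, dif_pos hk]; exact hk.choose_spec.2
    obtain ⟨q, hq, hlim⟩ := k4b_ulim_compact hG P (Eventually.of_forall hPG)
    refine hex q hq ⟨fun k => if hk : ∃ y, Φ k (K k) (P k) y then hk.choose else Y0 k, fun τ hτ => ?_⟩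
    set σ : ℝ := τ / (2 * (|C| + 1)) with hσ
    have hσ0 : 0 < σ := by positivity
    have hCσ : C * σ ≤ τ / 2 := by
      have h1 : C * σ ≤ (|C| + 1) * σ := mul_le_mul_of_nonneg_right (by linarith [le_abs_self C]) hσ0.le
      have h2 : (|C| + 1) * σ = τ / 2 := by
        rw [hσ]; field_simp
      linarith
    have hd : ∀ᶠ k in uf, dist (P k) q ≤ σ := by
      filter_upwards [(Metric.tendsto_nhds.1 hlim) σ hσ0] with k hk using hk.le
    filter_upwards [hPy, hd, hK (τ / 2) (by positivity)] with k hk hk1 hk2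
    simp only [dif_pos hk]
    refine hm k _ _ _ _ ?_ (hst k _ _ q σ _ hσ0 hk1 hk.choose_spec)
    rw [← kb_rpow_half R τ k]
    exact mul_le_mul hk2.2 (Real.rpow_le_rpow_of_exponent_le (kb_res_one_le R k) hCσ) (kb_L3_rpow_pos R k _).le (kb_L3_rpow_pos R k _).le
  · exact h

/-- the guard with a temperedness clause: the sequence-level notion of output asks for SOME polynomial complexity `N^M`, the guard fixes the exponent `M#` in advance -/
theorem k4b_guard_tmp (R : KbRes) {α : ℕ → Type*} {X : Type*} [PseudoMetricSpace X] (Y0 : ∀ k, α k) (T : ∀ k, ℝ → α k → Prop) (Φ : ∀ k, ℝ → X → α k → Prop)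
    (hm : ∀ k a b p y, a ≤ b → Φ k a p y → Φ k b p y) (C : ℝ)
    (hst : ∀ k a p p' σ y, 0 < σ → dist p p' ≤ σ → Φ k a p y → Φ k (a * R.N k ^ (C * σ)) p' y)
    (G : Set X) (hG : IsCompact G)
    (hex : ∀ p ∈ G, ¬ ∃ Y : ∀ k, α k, (∃ M : ℝ, ∀ᶠ k in uf, T k (R.N k ^ M) (Y k)) ∧ ∀ τ : ℝ, 0 < τ → ∀ᶠ k in uf, Φ k (R.N k ^ τ) p (Y k))
    (Ms : ℝ) (K : ℕ → ℝ) (hK : KbSubP R K) : ∀ᶠ k in uf, ¬ ∃ p ∈ G, ∃ y, T k (R.N k ^ Ms) y ∧ Φ k (K k) p y := by
  refine k4b_guard R Y0 (fun k a p y => T k (R.N k ^ Ms) y ∧ Φ k a p y) (fun k a b p y hab h => ⟨h.1, hm k a b p y hab h.2⟩) C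
    (fun k a p p' σ y hσ hd h => ⟨h.1, hst k a p p' σ y hσ hd h.2⟩) G hG ?_ K hK
  rintro p hp ⟨Y, hY⟩
  exact hex p hp ⟨Y, ⟨Ms, (hY 1 one_pos).mono fun k hk => hk.1⟩, fun τ hτ => (hY τ hτ).mono fun k hk => hk.2⟩

/-! ## 2. The numerical diagonal -/

/-- the numbers of one sample: original resolution, path factor, tangent unit, number of grid nodes -/
structure K4bNum where
  N0 : ℝ
  Kp : ℝ
  ε : ℝ
  G : ℝ

namespace K4bNum

/-- the slack base `K_path log N₀` -/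
def X (s : K4bNum) : ℝ := s.Kp * Real.log s.N0

/-- the tangent resolution -/
def N (s : K4bNum) : ℝ := s.N0 ^ s.ε

/-- (a03:mass-diagonal), (a03:slack-diagonal) at stage `n` -/
structure Ok (s : K4bNum) (n : ℕ) : Prop where
  two_le : 2 ≤ s.N0
  one_le_log : 1 ≤ Real.log s.N0
  one_le_Kp : 1 ≤ s.Kp
  eps_pos : 0 < s.ε
  grid : s.G / Real.log s.N0 ≤ 1 / ((n : ℝ) + 1)
  mass : s.X / s.N0 ≤ 1 / ((n : ℝ) + 1)
  slack : Real.log (s.X ^ n) / (s.ε * Real.log s.N0) ≤ 1 / ((n : ℝ) + 1)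
  big : (n : ℝ) ≤ s.N

end K4bNum

theorem k4b_eqns_cite : True := by
  have := @K4bNum.X.eq_1; have := @K4bNum.N.eq_1
  trivial

theorem k4b_log_tendsto (R : KbRes) : Tendsto (fun k => Real.log (R.N k)) uf atTop :=
  Real.tendsto_log_atTop.comp R.lim

/-- each condition is possible in the fixed exact sequence -/
theorem k4b_num_ev (R : KbRes) (K : ℕ → ℝ) (hK : KbSubP R K) (n : ℕ) (ε G : ℝ) (hε : 0 < ε) :
    ∀ᶠ k in uf, (K4bNum.mk (R.N k) (K k) ε G).Ok n := by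
  have hn : (0 : ℝ) < (n : ℝ) + 1 := by positivity
  set τ : ℝ := ε / (2 * ((n : ℝ) + 1) ^ 2) with hτ
  have hτ0 : 0 < τ := by positivity
  filter_upwards [hK (1 / 4) (by norm_num), kb_subp_log R (1 / 4) (by norm_num), hK τ hτ0, kb_subp_log R τ hτ0,
    (k4b_log_tendsto R).eventually_ge_atTop (max 1 (G * ((n : ℝ) + 1))), (kb_rpow_tendsto R hε).eventually_ge_atTop (n : ℝ),
    (kb_rpow_tendsto R (show (0 : ℝ) < 1 / 2 by norm_num)).eventually_ge_atTop ((n : ℝ) + 1)] with k h1 h2 h3 h4 h5 h6 h7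
  have hN := kb_res_pos R k
  have hlog1 : 1 ≤ Real.log (R.N k) := (le_max_left _ _).trans h5
  have hlog0 : 0 < Real.log (R.N k) := by linarith
  have hX1 : 1 ≤ K k * Real.log (R.N k) := by nlinarith [h1.1]
  refine ⟨R.two_le k, hlog1, h1.1, hε, ?_, ?_, ?_, h6⟩
  · show G / Real.log (R.N k) ≤ 1 / ((n : ℝ) + 1)
    rw [div_le_div_iff₀ hlog0 hn]
    linarith [(le_max_right _ _).trans h5]
  · show K k * Real.log (R.N k) / R.N k ≤ 1 / ((n : ℝ) + 1)
    have a1 : K k * Real.log (R.N k) ≤ R.N k ^ (1 / 4 : ℝ) * R.N k ^ (1 / 4 : ℝ) :=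
      mul_le_mul h1.2 (by linarith [h2.2]) hlog0.le (kb_L3_rpow_pos R k _).le
    have a2 : R.N k ^ (1 / 4 : ℝ) * R.N k ^ (1 / 4 : ℝ) = R.N k ^ (1 / 2 : ℝ) := by
      rw [← Real.rpow_add hN]; norm_num
    have a3 : R.N k ^ (1 / 2 : ℝ) * R.N k ^ (1 / 2 : ℝ) = R.N k := by
      rw [← Real.rpow_add hN]; norm_num
    rw [div_le_div_iff₀ hN hn, one_mul]
    have p := kb_L3_rpow_pos R k (1 / 2)
    calc K k * Real.log (R.N k) * ((n : ℝ) + 1) ≤ R.N k ^ (1 / 2 : ℝ) * R.N k ^ (1 / 2 : ℝ) :=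
          mul_le_mul (a1.trans a2.le) h7 hn.le p.le
      _ = R.N k := a3
  · show Real.log ((K k * Real.log (R.N k)) ^ n) / (ε * Real.log (R.N k)) ≤ 1 / ((n : ℝ) + 1)
    have a1 : K k * Real.log (R.N k) ≤ R.N k ^ τ * R.N k ^ τ :=
      mul_le_mul h3.2 (by linarith [h4.2]) hlog0.le (kb_L3_rpow_pos R k _).le
    have a2 : Real.log (K k * Real.log (R.N k)) ≤ 2 * τ * Real.log (R.N k) := by
      calc Real.log (K k * Real.log (R.N k)) ≤ Real.log (R.N k ^ τ * R.N k ^ τ) := Real.log_le_log (by linarith) a1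
        _ = 2 * τ * Real.log (R.N k) := by
            rw [← Real.rpow_add hN, Real.log_rpow hN]; ring
    rw [Real.log_pow, div_le_div_iff₀ (by positivity) hn, one_mul]
    have a3 : (n : ℝ) * (2 * τ) * ((n : ℝ) + 1) ≤ ε := by
      have : (n : ℝ) * (2 * τ) * ((n : ℝ) + 1) = ε * ((n : ℝ) / ((n : ℝ) + 1)) := by
        rw [hτ]; field_simp
      rw [this]
      have h01 : (n : ℝ) / ((n : ℝ) + 1) ≤ 1 := by
        rw [div_le_one hn]; linarith
      nlinarith
    have hn0 : (0 : ℝ) ≤ (n : ℝ) := Nat.cast_nonneg _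
    calc (n : ℝ) * Real.log (K k * Real.log (R.N k)) * ((n : ℝ) + 1)
        ≤ (n : ℝ) * (2 * τ * Real.log (R.N k)) * ((n : ℝ) + 1) := by gcongr
      _ = ((n : ℝ) * (2 * τ) * ((n : ℝ) + 1)) * Real.log (R.N k) := by ring
      _ ≤ ε * Real.log (R.N k) := mul_le_mul_of_nonneg_right a3 hlog0.le

/-- **the choice of the samples**: stage `n` → exact sequence `R n` with its path factor `Kp n` → a sample `κ n` beyond all cut-offs `P n` of the stage -/
theorem k4b_diagonal (R : ℕ → KbRes) (Kp : ℕ → ℕ → ℝ) (hK : ∀ n, KbSubP (R n) (Kp n)) (ε G : ℕ → ℝ) (hε : ∀ n, 0 < ε n)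
    (P : ℕ → ℕ → Prop) (hP : ∀ n, ∀ᶠ k in uf, P n k) :
    ∃ κ : ℕ → ℕ, (∀ n, P n (κ n)) ∧ ∀ n, (K4bNum.mk ((R n).N (κ n)) (Kp n (κ n)) (ε n) (G n)).Ok n := by
  have := Claimed.Agent.R255.uf_neBot
  have h : ∀ n, ∃ k, P n k ∧ (K4bNum.mk ((R n).N k) (Kp n k) (ε n) (G n)).Ok n := fun n =>
    ((hP n).and (k4b_num_ev (R n) (Kp n) (hK n) n (ε n) (G n) (hε n))).exists
  choose κ hκ using h
  exact ⟨κ, fun n => (hκ n).1, fun n => (hκ n).2⟩

/-! ## 3. The diagonal resolution -/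

theorem k4b_nat_tendsto : Tendsto (fun n : ℕ => (n : ℝ)) uf atTop :=
  tendsto_natCast_atTop_atTop.mono_left Claimed.Agent.R255.uf_le_atTop

/-- the resolution `N = N₀^{ε_n}` of the tangent diagonal -/
def k4bRes (s : ℕ → K4bNum) (h : ∀ᶠ n in uf, (s n).Ok n) : KbRes where
  N := fun n => max 2 (s n).N
  two_le := fun _ => le_max_left _ _
  lim := by
    refine tendsto_atTop_mono' uf ?_ k4b_nat_tendsto
    filter_upwards [h] with n hn
    exact hn.big.trans (le_max_right _ _)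

theorem k4b_res_eq (s : ℕ → K4bNum) (h : ∀ᶠ n in uf, (s n).Ok n) : ∀ᶠ n in uf, (k4bRes s h).N n = (s n).N := by
  filter_upwards [h, k4b_nat_tendsto.eventually_ge_atTop 2] with n hn h2
  exact max_eq_right (h2.trans hn.big)

theorem k4b_X_one_le {s : K4bNum} {n : ℕ} (h : s.Ok n) : 1 ≤ s.X := by
  unfold K4bNum.X
  nlinarith [h.one_le_Kp, h.one_le_log]

/-- one-scale form of (a03:slack-diagonal): `(K_path log N₀)^n ≤ N^{1/(n+1)}` -/
theorem k4b_slack_le {s : K4bNum} {n : ℕ} (h : s.Ok n) : s.X ^ n ≤ s.N ^ (1 / ((n : ℝ) + 1)) := by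
  have hN0 : 0 < s.N0 := by linarith [h.two_le]
  have hX := k4b_X_one_le h
  have hlog0 : 0 < Real.log s.N0 := by linarith [h.one_le_log]
  have h1 := h.slack
  rw [div_le_iff₀ (mul_pos h.eps_pos hlog0)] at h1
  have hXn : 0 < s.X ^ n := by positivity
  unfold K4bNum.N
  rw [← Real.log_le_log_iff hXn (Real.rpow_pos_of_pos (Real.rpow_pos_of_pos hN0 _) _)]
  rw [Real.log_rpow (Real.rpow_pos_of_pos hN0 _), Real.log_rpow hN0]
  exact h1

theorem k4b_inv_tendsto : Tendsto (fun n : ℕ => 1 / ((n : ℝ) + 1)) uf (𝓝 0) :=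
  (tendsto_one_div_add_atTop_nhds_zero_nat (𝕜 := ℝ)).mono_left Claimed.Agent.R255.uf_le_atTop

/-- the guard slack `(K_path log N₀)^n` is subpower on the diagonal -/
theorem k4b_subp_slack (s : ℕ → K4bNum) (h : ∀ᶠ n in uf, (s n).Ok n) : KbSubP (k4bRes s h) fun n => (s n).X ^ n := by
  intro τ hτ
  filter_upwards [h, k4b_res_eq s h, k4b_inv_tendsto.eventually (eventually_le_nhds hτ)] with n hn he hle
  refine ⟨one_le_pow₀ (k4b_X_one_le hn), (k4b_slack_le hn).trans ?_⟩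
  rw [he]
  have h1 : 1 ≤ (s n).N := by
    rw [← he]; exact kb_res_one_le _ n
  exact Real.rpow_le_rpow_of_exponent_le h1 hle

/-- every fixed power of `K_path log N₀` is subpower on the diagonal ("an actual slack or list power fixed by the scenario is eventually less than `n`") -/
theorem k4b_subp_fixed (s : ℕ → K4bNum) (h : ∀ᶠ n in uf, (s n).Ok n) (m : ℕ) : KbSubP (k4bRes s h) fun n => (s n).X ^ m := by
  refine kb_subp_mono _ (k4b_subp_slack s h) ?_
  filter_upwards [h, (tendsto_id.mono_left Claimed.Agent.R255.uf_le_atTop).eventually_ge_atTop m] with n hn hm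
  exact ⟨one_le_pow₀ (k4b_X_one_le hn), pow_le_pow_right₀ (k4b_X_one_le hn) hm⟩

theorem k4b_subp_X (s : ℕ → K4bNum) (h : ∀ᶠ n in uf, (s n).Ok n) : KbSubP (k4bRes s h) fun n => (s n).X := by
  simpa using k4b_subp_fixed s h 1

theorem k4b_subp_Kp (s : ℕ → K4bNum) (h : ∀ᶠ n in uf, (s n).Ok n) : KbSubP (k4bRes s h) fun n => (s n).Kp := by
  refine kb_subp_mono _ (k4b_subp_X s h) ?_
  filter_upwards [h] with n hn
  refine ⟨hn.one_le_Kp, ?_⟩
  unfold K4bNum.X
  nlinarith [hn.one_le_Kp, hn.one_le_log]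

theorem k4b_subp_log (s : ℕ → K4bNum) (h : ∀ᶠ n in uf, (s n).Ok n) : KbSubP (k4bRes s h) fun n => Real.log (s n).N0 := by
  refine kb_subp_mono _ (k4b_subp_X s h) ?_
  filter_upwards [h] with n hn
  refine ⟨hn.one_le_log, ?_⟩
  unfold K4bNum.X
  nlinarith [hn.one_le_Kp, hn.one_le_log]

/-- a slack that is `C (K_path log N₀)^C` at the samples is subpower on the diagonal -/
theorem k4b_subp_poly (s : ℕ → K4bNum) (h : ∀ᶠ n in uf, (s n).Ok n) {C : ℝ} (hC : 1 ≤ C) : KbSubP (k4bRes s h) fun n => C * (s n).X ^ C :=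
  kb_subp_pow _ (k4b_subp_X s h) hC

/-- `G_n` losses of relative size `1 / log N₀` -/
theorem k4b_loss {s : K4bNum} {n : ℕ} (h : s.Ok n) (p : ℝ) (hp : 0 ≤ p) : s.G * (p / Real.log s.N0) ≤ p / ((n : ℝ) + 1) := by
  have h1 := h.grid
  calc s.G * (p / Real.log s.N0) = p * (s.G / Real.log s.N0) := by ring
    _ ≤ p * (1 / ((n : ℝ) + 1)) := mul_le_mul_of_nonneg_left h1 hp
    _ = p / ((n : ℝ) + 1) := by ring

/-- original powers in tangent units -/
theorem k4b_rpow_units {s : K4bNum} {n : ℕ} (h : s.Ok n) (a : ℝ) : s.N ^ a = s.N0 ^ (s.ε * a) := by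
  unfold K4bNum.N
  rw [← Real.rpow_mul (by linarith [h.two_le])]

/-- **exponents on the diagonal**: an exponent `e n` known at the sample with error `ε_n/(n+1)` in original units, with `e n / ε_n → t`, is the exponent `t` in tangent units -/
theorem k4b_exp (s : ℕ → K4bNum) (h : ∀ᶠ n in uf, (s n).Ok n) (x e : ℕ → ℝ) (t : ℝ)
    (hx : ∀ᶠ n in uf, (s n).N0 ^ (-(e n) - (s n).ε / ((n : ℝ) + 1)) ≤ x n ∧ x n ≤ (s n).N0 ^ (-(e n) + (s n).ε / ((n : ℝ) + 1)))
    (he : Tendsto (fun n => e n / (s n).ε) uf (𝓝 t)) : KbExp (k4bRes s h) x t := by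
  intro τ hτ
  have hd : ∀ᶠ n in uf, |e n / (s n).ε - t| < τ / 2 := by
    filter_upwards [(Metric.tendsto_nhds.1 he) (τ / 2) (by positivity)] with n hn
    rwa [Real.dist_eq] at hn
  filter_upwards [h, k4b_res_eq s h, hx, hd, k4b_inv_tendsto.eventually (eventually_le_nhds (half_pos hτ))] with n hn hr hxn hdn hin
  rw [hr, k4b_rpow_units hn, k4b_rpow_units hn]
  have h1 : (1 : ℝ) ≤ (s n).N0 := by linarith [hn.two_le]
  have hε := hn.eps_pos
  rw [abs_lt] at hdn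
  have e1 : e n = (s n).ε * (e n / (s n).ε) := by field_simp
  have e2 : (s n).ε / ((n : ℝ) + 1) = (s n).ε * (1 / ((n : ℝ) + 1)) := by ring
  constructor
  · refine le_trans (Real.rpow_le_rpow_of_exponent_le h1 ?_) hxn.1
    rw [e2]
    nlinarith [hdn.1, hdn.2]
  · refine hxn.2.trans (Real.rpow_le_rpow_of_exponent_le h1 ?_)
    rw [e2]
    nlinarith [hdn.1, hdn.2]

/-- the requirement of `k4b_exp` is one of the cut-offs of the stage -/
theorem k4b_exp_ev (R : KbRes) (x : ℕ → ℝ) (e : ℝ) (hx : KbExp R x e) (n : ℕ) (ε : ℝ) (hε : 0 < ε) :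
    ∀ᶠ k in uf, R.N k ^ (-e - ε / ((n : ℝ) + 1)) ≤ x k ∧ x k ≤ R.N k ^ (-e + ε / ((n : ℝ) + 1)) :=
  hx _ (by positivity)

/-! ## 4. The complexity guard -/

/-- (a03:complexity-guard): a polynomial complexity bound of a fixed scenario fits the predeclared guard `M# = 2^{(M_path + n)²}` eventually, uniformly in `M_path ≥ 1` -/
theorem k4b_complexity (C : ℝ) (d : ℕ) : ∃ n0 : ℕ, ∀ n : ℕ, n0 ≤ n → ∀ M : ℝ, 1 ≤ M → C * (1 + M) ^ d ≤ (2 : ℝ) ^ ((M + n) ^ 2) := by
  obtain ⟨c, hc⟩ := exists_nat_ge (max C 1)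
  refine ⟨max d c, fun n hn M hM => ?_⟩
  have hd : (d : ℝ) ≤ n := by exact_mod_cast (le_max_left _ _).trans hn
  have hcn : (c : ℝ) ≤ n := by exact_mod_cast (le_max_right _ _).trans hn
  have h1 : 1 + M ≤ (2 : ℝ) ^ M := by
    have := one_add_mul_self_le_rpow_one_add (s := 1) (by norm_num) hM
    norm_num at this
    linarith
  have h2 : (1 + M) ^ d ≤ (2 : ℝ) ^ (M * d) := by
    rw [Real.rpow_mul (by norm_num), Real.rpow_natCast]
    exact pow_le_pow_left₀ (by linarith) h1 d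
  have h3 : C ≤ (2 : ℝ) ^ (n : ℝ) := by
    have a : (n : ℝ) + 1 ≤ (2 : ℝ) ^ n := by exact_mod_cast Nat.lt_two_pow_self
    rw [Real.rpow_natCast]
    linarith [(le_max_left C 1).trans hc]
  have hn1 : (1 : ℝ) ≤ n := ((le_max_right C 1).trans hc).trans hcn
  have p2 : (0 : ℝ) < (2 : ℝ) ^ (M * d) := by positivity
  calc C * (1 + M) ^ d ≤ (2 : ℝ) ^ (n : ℝ) * (2 : ℝ) ^ (M * d) := by
        rcases le_total C 0 with h0 | h0
        · exact (mul_nonpos_of_nonpos_of_nonneg h0 (by positivity)).trans (by positivity)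
        · exact mul_le_mul h3 h2 (by positivity) (by positivity)
    _ = (2 : ℝ) ^ ((n : ℝ) + M * d) := by rw [← Real.rpow_add (by norm_num)]
    _ ≤ (2 : ℝ) ^ ((M + n) ^ 2) := by
        refine Real.rpow_le_rpow_of_exponent_le (by norm_num) ?_
        nlinarith [mul_le_mul_of_nonneg_left hd (by linarith : (0 : ℝ) ≤ M), sq_nonneg M]

end

end Claimed.Agent.R252
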