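import Claimed.Agent.R252.S4B.SamContract
import Claimed.Agent.R252.S2a.PbContract

/-!
# ROW 252 (S0492), unit S4B, file 3: THE CONCRETE GUARD in the form asked by S4C (helper294).      No `sorry` in this file.
`k4b_guard_ex` : `a03:finite-guard` for an exact problem `E` with the two exclusions, ANY subpower slack `Ks` and any fixed complexity exponent `M`.
-/

set_option autoImplicit false

namespace Claimed.Agent.R252

open MeasureTheory Filter Topology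
open Claimed.Agent.R255 (uf)
open scoped ENNReal BigOperators

noncomputable section

variable {v : KbVer}

/-- an output with slack `K` satisfies `Φ` with `h = - log_N q` -/
theorem k4b_phi_of_out (E : KbEx v) (k : ℕ) (K : ℝ) (h1 : 1 ≤ K) (hP : (E.P k).WF) (Y : KbSys (E.P k)) (r : ℝ) (hgeo : Y.Geo K (E.R.N k ^ (-r)))
    (hkn : Y.Known ((E.P k).hid (E.R.N k ^ (-E.L))) K) (hmass : 1 ≤ ENNReal.ofReal K * Y.mass) :
    ∃ h : ℝ, 0 ≤ h ∧ Y.q = E.R.N k ^ (-h) ∧ k4bPhi E k K (r, h) Y := by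
  have hq0 : 0 < Y.q := by unfold KbSys.q kbQ; positivity
  have hq1 : Y.q ≤ 1 := by
    unfold KbSys.q kbQ
    exact pow_le_one₀ (by norm_num) (by norm_num)
  have hN := kb_L3_pos E.R k
  have hN1 := kb_L3_one_lt E.R k
  have hq : Y.q = E.R.N k ^ (-(-Real.logb (E.R.N k) Y.q)) := by
    rw [neg_neg, Real.rpow_logb hN hN1.ne' hq0]
  refine ⟨-Real.logb (E.R.N k) Y.q, neg_nonneg.2 (Real.logb_nonpos hN1 hq0.le hq1), hq, h1, hP, hgeo, hkn, (k2a_tot_le hP).trans hmass, ?_, ?_⟩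
  · show E.R.N k ^ (-(-Real.logb (E.R.N k) Y.q)) ≤ K * Y.q
    rw [← hq]
    exact le_mul_of_one_le_left hq0.le h1
  · show Y.q ≤ K * E.R.N k ^ (-(-Real.logb (E.R.N k) Y.q))
    rw [← hq]
    exact le_mul_of_one_le_left hq0.le h1

/-- **L a03:finite-guard**, concrete form -/
theorem k4b_guard_ex (E : KbEx v) (hE : E.Ok) (kk ell z dl th thc M : ℝ) (hell : 0 ≤ ell) (h1 : KpExcl1 E kk z) (h2 : v = KbVer.two → KpExcl2 E kk ell dl z)
    (Ks : ℕ → ℝ) (hKs : KbSubP E.R Ks) (hz : z < th) (hthc : thc ≤ dl) :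
    ∀ᶠ k in uf, ∀ (Y : KbSys (E.P k)) (r : ℝ), 0 ≤ r → r ≤ E.L / 2 → Y.WF → Y.Geo (Ks k) (E.R.N k ^ (-r)) → Y.Known ((E.P k).hid (E.R.N k ^ (-E.L))) (Ks k) →
      Y.Tmp (E.R.N k ^ M) → 1 ≤ ENNReal.ofReal (Ks k) * Y.mass →
        Y.q < E.R.N k ^ (-(kk * r - th)) ∧ (v = KbVer.two → E.R.N k ^ (-(kk * r + thc)) ≤ Y.q → ∃ c, Y.q ^ 2 / (Y.ch c).J < E.R.N k ^ (ell * r + th)) := by
  have hL : 0 < E.L := hE.1
  have g1 := k4b_guard_tmp E.R (fun k => k4bY0 (E.P k)) (fun k Qb Y => Y.WF ∧ Y.Tmp Qb) (k4bPhi E) (fun k a b q Y => k4b_phi_mono E k a b q Y) 1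
    (fun k a q q' σ Y => k4b_phi_stab E k a q q' σ Y) _ (k4b_compact E.L kk (-th)) (by
      rintro q ⟨hr, hr2, -, hh⟩ ⟨Y, hT, hΦ⟩
      have := h1 Y q.1 q.2 hr (by linarith) (k4b_atlas_of_phi E hE Y q hT hΦ)
      linarith) M _ hKs
  have g2' : ∀ᶠ k in uf, v = KbVer.two → ¬ ∃ q ∈ {q : ℝ × ℝ | 0 ≤ q.1 ∧ q.1 ≤ E.L / 2 ∧ 0 ≤ q.2 ∧ q.2 ≤ kk * q.1 + thc}, ∃ Y : KbSys (E.P k),
      (Y.WF ∧ Y.Tmp (E.R.N k ^ M)) ∧ k4bPhi2 E ell th k (Ks k) q Y := by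
    by_cases hv : v = KbVer.two
    · refine (k4b_guard_tmp E.R (fun k => k4bY0 (E.P k)) (fun k Qb Y => Y.WF ∧ Y.Tmp Qb) (k4bPhi2 E ell th) (fun k a b q Y => k4b_phi2_mono E _ _ k a b q Y) (1 + ell)
        (fun k a q q' σ Y => k4b_phi2_stab E _ _ hell k a q q' σ Y) _ (k4b_compact E.L kk thc) (by
          rintro q ⟨hr, hr2, -, hh⟩ ⟨Y, hT, hΦ⟩
          have := k4b_narrow_excl E hE kk ell dl z th (h2 hv) Y q hr hr2 (by linarith) hT hΦ
          linarith) M _ hKs).mono fun k hk _ => hk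
    · exact Eventually.of_forall fun k h => absurd h hv
  obtain ⟨M', hM'⟩ := hE.2.1
  filter_upwards [g1, g2', hM', hKs 1 one_pos] with k a1 a2 a3 a4
  intro Y r hr hr2 hwf hgeo hkn htmp hmass
  obtain ⟨h, hh0, hq, hΦ⟩ := k4b_phi_of_out E k _ a4.1 a3.1 Y r hgeo hkn hmass
  constructor
  · by_contra hcon
    have hle : E.R.N k ^ (-(kk * r - th)) ≤ E.R.N k ^ (-h) := by rw [← hq]; exact not_lt.1 hcon
    have := (kb_L3_rpow_le_iff E.R k).1 hle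
    exact a1 ⟨(r, h), ⟨hr, hr2, hh0, by show h ≤ kk * r + -th; linarith⟩, Y, ⟨hwf, htmp⟩, hΦ⟩
  · intro hv hch
    by_contra hcon
    push Not at hcon
    have hle : E.R.N k ^ (-(kk * r + thc)) ≤ E.R.N k ^ (-h) := by rw [← hq]; exact hch
    have := (kb_L3_rpow_le_iff E.R k).1 hle
    refine a2 hv ⟨(r, h), ⟨hr, hr2, hh0, by show h ≤ kk * r + thc; linarith⟩, Y, ⟨hwf, htmp⟩, hΦ, fun c => ?_⟩
    have h0 : 0 ≤ Y.q ^ 2 / (Y.ch c).J := div_nonneg (sq_nonneg _) (abs_nonneg _)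
    exact (hcon c).trans (le_mul_of_one_le_left h0 a4.1)

end

end Claimed.Agent.R252
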