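import Claimed.Agent.R252.S4B.Diag
import Claimed.Agent.R252.S4.Inst
import Claimed.Agent.R252.S4.Crit

/-!
# ROW 252 (S0492), unit S4B, file 2: THE GUARD AND THE DIAGONAL OVER THE BASE  (04 l.351-475; `a03:finite-guard`, (a03:limit-order), (a03:mass-diagonal), (a03:slack-diagonal)).      CONTRACT file: every `sorry` is a leaf L-252-S4B-*.

* `D : K4bPre v`     the exact-level data of ONE stage: the remaining problem `F : KbEx v` at the parent node, the stage constants `eps, G, dep, n, th, thc, Mp, Mg`, and along the sequence `k` the nodes `Q k`, `up k`, palettes, reference weights, `Kp k`.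
  `D.sam k : KpSam v` the sample at `k` (`P := F.P k`, `N0 := F.R.N k`, `Lr := F.L`).
* `k4b_guard_ev`     **L a03:finite-guard over the Base** (PROVED from the leaves + `k4b_guard_tmp`): `F.Ok`, `K_path` subpower, `KpExcl1 F k ζ`, `KpExcl2 F k ell δ ζ`, `ζ < th`, `thc ≤ δ`  ⟹  `∀ᶠ k, (D.sam k).Guard p`.
* `k4b_diag_ev`      the three numerical fields `slack`, `nodes`, `small` of `KpSam.Ok` hold eventually.
* `K4bHubPre`        THE EXIT ASKED FROM S4C (helper294): for every tolerance a stage whose samples are `Ok` as soon as they are guarded and late.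
* `k4b_hub_sam : K4bHubPre → KpHubSam`  (PROVED from `k4b_sam_mono`).
-/

set_option autoImplicit false

namespace Claimed.Agent.R252

open MeasureTheory Filter Topology
open Claimed.Agent.R255 (uf)
open scoped ENNReal BigOperators

noncomputable section

variable {v : KbVer}

/-- **the exact-level data of one stage** -/
structure K4bPre (v : KbVer) where
  F : KbEx v
  eps : ℝ
  G : ℕ
  dep : ℕ → ℝ
  Q : ∀ k, ℕ → KbSys (F.P k)
  up : ∀ k m, (Q k (m + 1)).C → (Q k m).C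
  pal : ∀ k, (F.P k).W → Measure (KbB v)
  ref : ∀ k, (Q k G).C → ℝ≥0∞
  Kp : ℕ → ℝ
  n : ℕ
  th : ℝ
  thc : ℝ
  Mp : ℝ
  Mg : ℝ

/-- the sample at `k` -/
def K4bPre.sam (D : K4bPre v) (k : ℕ) : KpSam v where
  P := D.F.P k
  N0 := D.F.R.N k
  eps := D.eps
  Lr := D.F.L
  G := D.G
  dep := D.dep
  Q := D.Q k
  up := D.up k
  pal := D.pal k
  ref := D.ref k
  Kp := D.Kp k
  n := D.n
  th := D.th
  thc := D.thc
  Mp := D.Mp
  Mg := D.Mg

/-- the empty system -/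
def k4bY0 (P : KbPb v) : KbSys P where
  n := 0
  C := Empty
  fC := inferInstance
  wd := fun c => c.elim
  iv := fun _ => 0
  A := fun _ => ∅
  S := fun _ => ∅
  ch := fun c => c.elim

/-- "`Y` is an output at depth `p.1` and time cost `p.2` with slack `K`" -/
def k4bPhi (F : KbEx v) (k : ℕ) (K : ℝ) (p : ℝ × ℝ) (Y : KbSys (F.P k)) : Prop :=
  1 ≤ K ∧ (F.P k).WF ∧ Y.Geo K (F.R.N k ^ (-p.1)) ∧ Y.Known ((F.P k).hid (F.R.N k ^ (-F.L))) K ∧ (F.P k).tot ≤ ENNReal.ofReal K * Y.mass ∧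
    F.R.N k ^ (-p.2) ≤ K * Y.q ∧ Y.q ≤ K * F.R.N k ^ (-p.2)

/-- the same, uniformly narrower than `ell r + th` -/
def k4bPhi2 (F : KbEx v) (ell th : ℝ) (k : ℕ) (K : ℝ) (p : ℝ × ℝ) (Y : KbSys (F.P k)) : Prop :=
  k4bPhi F k K p Y ∧ ∀ c, F.R.N k ^ (ell * p.1 + th) ≤ K * (Y.q ^ 2 / (Y.ch c).J)

theorem k4b_eqns_cite2 : True := by
  have := @K4bPre.sam.eq_1; have := @k4bY0.eq_1; have := @k4bPhi.eq_1; have := @k4bPhi2.eq_1
  trivial

/-! ## 1. One-scale properties of `Φ` -/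

/-- **L-252-S4B-G1** (~60 l.).  Field by field; `size, box, dw, dw_low` only need `K ≤ K c` (`0 ≤ q`, `0 < B`, `1 ≤ K`, `1 ≤ c`);  `val`: `K a ≤ K (c a')`;  `dww`: `|∂ww| a' ≤ |∂ww| (c a) ≤ c K B²`. -/
theorem k4b_geo_stab {P : KbPb v} (hP : P.WF) {Y : KbSys P} {K a a' c : ℝ} (hK : 1 ≤ K) (hc : 1 ≤ c) (ha : a ≤ c * a') (ha' : a' ≤ c * a) (h0 : 0 ≤ a') (h : Y.Geo K a) :
    Y.Geo (K * c) a' := by
  have hq : 0 ≤ Y.q := by unfold KbSys.q kbQ; positivity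
  have hK0 : 0 ≤ K := by linarith
  have hKc : K ≤ K * c := le_mul_of_one_le_right hK0 hc
  refine ⟨fun d => (h.size d).trans (mul_le_mul_of_nonneg_left hKc hq), fun d l hl t ht => (h.box d l hl t ht).trans hKc,
    fun d l hl t ht => (h.val d l hl t ht).trans ?_,
    fun d l hl t ht => (h.dw d l hl t ht).trans (mul_le_mul_of_nonneg_right hKc (hP.B_pos _).le),
    fun d x hx => (h.dw_low d x hx).trans (mul_le_mul_of_nonneg_right hKc (abs_nonneg _)),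
    fun d t y w => ?_⟩
  · calc K * a ≤ K * (c * a') := mul_le_mul_of_nonneg_left ha hK0
      _ = K * c * a' := by ring
  · calc |kbDww (Y.ch d).T t y w| * a' ≤ |kbDww (Y.ch d).T t y w| * (c * a) := mul_le_mul_of_nonneg_left ha' (abs_nonneg _)
      _ = c * (|kbDww (Y.ch d).T t y w| * a) := by ring
      _ ≤ c * (K * P.B (Y.wd d) ^ 2) := mul_le_mul_of_nonneg_left (h.dww d t y w) (by linarith)
      _ = K * c * P.B (Y.wd d) ^ 2 := by ring

/-- **L-252-S4B-G2** (this and the next three statements, ~150 l.).  Monotonicity in the slack (`k4b_geo_stab` with `a' = a` after writing `b = a * (b / a)`, or field by field) and `N^{Cσ}`-stability in `(r, h)`: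
`dist p p' ≤ σ` gives `|p.1 - p'.1| ≤ σ`, `|p.2 - p'.2| ≤ σ` (`Prod.dist_eq`, `le_max_left/right`, `Real.dist_eq`); `N^{-r} ≤ N^σ N^{-r'}` (`Real.rpow_add`, `Real.rpow_le_rpow_of_exponent_le`, `kb_res_one_le`). -/
theorem k4b_phi_mono (F : KbEx v) (k : ℕ) (a b : ℝ) (p : ℝ × ℝ) (Y : KbSys (F.P k)) (hab : a ≤ b) (h : k4bPhi F k a p Y) : k4bPhi F k b p Y := by
  obtain ⟨h1, hP, hG, hKn, hm, hq1, hq2⟩ := h
  have hq : 0 ≤ Y.q := by unfold KbSys.q kbQ; positivity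
  have ha0 : 0 < a := by linarith
  have hth : 0 < F.R.N k ^ (-p.1) := kb_L3_rpow_pos F.R k _
  have hc : 1 ≤ b / a := by rwa [one_le_div ha0]
  refine ⟨h1.trans hab, hP, ?_, ?_, hm.trans (mul_le_mul_left (ENNReal.ofReal_le_ofReal hab) _), hq1.trans (mul_le_mul_of_nonneg_right hab hq),
    hq2.trans (mul_le_mul_of_nonneg_right hab (kb_L3_rpow_pos F.R k _).le)⟩
  · have := k4b_geo_stab hP h1 hc (le_mul_of_one_le_left hth.le hc) (le_mul_of_one_le_left hth.le hc) hth.le hG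
    rwa [mul_div_cancel₀ _ ha0.ne'] at this
  · obtain ⟨Lst, l1, l2, l3⟩ := hKn
    exact ⟨Lst, fun γ d o => (l1 γ d o).trans hab, l2, l3⟩

theorem k4b_phi_stab (F : KbEx v) (k : ℕ) (a : ℝ) (p p' : ℝ × ℝ) (σ : ℝ) (Y : KbSys (F.P k)) (hσ : 0 < σ) (hd : dist p p' ≤ σ) (h : k4bPhi F k a p Y) :
    k4bPhi F k (a * F.R.N k ^ (1 * σ)) p' Y := by
  rw [one_mul]
  obtain ⟨h1, hP, hG, hKn, hm, hq1, hq2⟩ := h
  have hq : 0 ≤ Y.q := by unfold KbSys.q kbQ; positivity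
  have ha0 : 0 < a := by linarith
  have hN := kb_L3_pos F.R k
  have hc : 1 ≤ F.R.N k ^ σ := kb_L3_one_le_rpow F.R k hσ.le
  have hac : a ≤ a * F.R.N k ^ σ := le_mul_of_one_le_right ha0.le hc
  have d1 : |p.1 - p'.1| ≤ σ := by
    have : dist p.1 p'.1 ≤ dist p p' := by rw [Prod.dist_eq]; exact le_max_left _ _
    rw [Real.dist_eq] at this; exact this.trans hd
  have d2 : |p.2 - p'.2| ≤ σ := by
    have : dist p.2 p'.2 ≤ dist p p' := by rw [Prod.dist_eq]; exact le_max_right _ _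
    rw [Real.dist_eq] at this; exact this.trans hd
  rw [abs_le] at d1 d2
  have key : ∀ x y : ℝ, y - x ≤ σ → F.R.N k ^ (-x) ≤ F.R.N k ^ σ * F.R.N k ^ (-y) := by
    intro x y hxy
    rw [← Real.rpow_add hN]
    exact (kb_L3_rpow_le_iff F.R k).2 (by linarith)
  refine ⟨h1.trans hac, hP, k4b_geo_stab hP h1 hc (key _ _ (by linarith [d1.1])) (key _ _ (by linarith [d1.2])) (kb_L3_rpow_pos F.R k _).le hG, ?_,
    hm.trans (mul_le_mul_left (ENNReal.ofReal_le_ofReal hac) _), ?_, ?_⟩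
  · obtain ⟨Lst, l1, l2, l3⟩ := hKn
    exact ⟨Lst, fun γ d o => (l1 γ d o).trans hac, l2, l3⟩
  · calc F.R.N k ^ (-p'.2) ≤ F.R.N k ^ σ * F.R.N k ^ (-p.2) := key _ _ (by linarith [d2.2])
      _ ≤ F.R.N k ^ σ * (a * Y.q) := mul_le_mul_of_nonneg_left hq1 (by linarith)
      _ = a * F.R.N k ^ σ * Y.q := by ring
  · calc Y.q ≤ a * F.R.N k ^ (-p.2) := hq2
      _ ≤ a * (F.R.N k ^ σ * F.R.N k ^ (-p'.2)) := mul_le_mul_of_nonneg_left (key _ _ (by linarith [d2.1])) ha0.le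
      _ = a * F.R.N k ^ σ * F.R.N k ^ (-p'.2) := by ring

theorem k4b_phi2_mono (F : KbEx v) (ell th : ℝ) (k : ℕ) (a b : ℝ) (p : ℝ × ℝ) (Y : KbSys (F.P k)) (hab : a ≤ b) (h : k4bPhi2 F ell th k a p Y) : k4bPhi2 F ell th k b p Y := by
  refine ⟨k4b_phi_mono F k a b p Y hab h.1, fun c => (h.2 c).trans (mul_le_mul_of_nonneg_right hab ?_)⟩
  exact div_nonneg (sq_nonneg _) (abs_nonneg _)

theorem k4b_phi2_stab (F : KbEx v) (ell th : ℝ) (hell : 0 ≤ ell) (k : ℕ) (a : ℝ) (p p' : ℝ × ℝ) (σ : ℝ) (Y : KbSys (F.P k)) (hσ : 0 < σ) (hd : dist p p' ≤ σ)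
    (h : k4bPhi2 F ell th k a p Y) : k4bPhi2 F ell th k (a * F.R.N k ^ ((1 + ell) * σ)) p' Y := by
  have ha0 : 0 < a := by linarith [h.1.1]
  have hN := kb_L3_pos F.R k
  have hle : a * F.R.N k ^ (1 * σ) ≤ a * F.R.N k ^ ((1 + ell) * σ) :=
    mul_le_mul_of_nonneg_left ((kb_L3_rpow_le_iff F.R k).2 (by nlinarith)) ha0.le
  refine ⟨k4b_phi_mono F k _ _ p' Y hle (k4b_phi_stab F k a p p' σ Y hσ hd h.1), fun c => ?_⟩
  have d1 : |p.1 - p'.1| ≤ σ := by
    have : dist p.1 p'.1 ≤ dist p p' := by rw [Prod.dist_eq]; exact le_max_left _ _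
    rw [Real.dist_eq] at this; exact this.trans hd
  rw [abs_le] at d1
  have h0 : 0 ≤ Y.q ^ 2 / (Y.ch c).J := div_nonneg (sq_nonneg _) (abs_nonneg _)
  calc F.R.N k ^ (ell * p'.1 + th) ≤ F.R.N k ^ ((1 + ell) * σ + (ell * p.1 + th)) := (kb_L3_rpow_le_iff F.R k).2 (by nlinarith [d1.1, d1.2])
    _ = F.R.N k ^ ((1 + ell) * σ) * F.R.N k ^ (ell * p.1 + th) := Real.rpow_add hN _ _
    _ ≤ F.R.N k ^ ((1 + ell) * σ) * (a * (Y.q ^ 2 / (Y.ch c).J)) := mul_le_mul_of_nonneg_left (h.2 c) (kb_L3_rpow_pos F.R k _).le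
    _ = a * F.R.N k ^ ((1 + ell) * σ) * (Y.q ^ 2 / (Y.ch c).J) := by ring

/-! ## 2. The sequence level -/

/-- **L-252-S4B-G3** (~80 l.).  Unfold `KbEx.IsAtlas`, `IsSys`, `IsKnown`, `KbExp`, `KbEx.a`, `KbEx.hid`, `KbSys.Big`.  `Big (N^τ)`: `1 ≤ N^{τ/2} tot` (`hF.2.2 (τ/2)`, field `mass` of `Ntv`) and `tot ≤ N^{τ/2} mass`;
`KbExp R q h`: `N^{-h} ≤ N^τ q` and `q ≤ N^τ N^{-h}` (`Real.rpow_add`, divide by `N^τ`). -/
theorem k4b_atlas_of_phi (F : KbEx v) (hF : F.Ok) (Y : F.Sys) (p : ℝ × ℝ) (hT : ∃ M : ℝ, ∀ᶠ k in uf, (Y k).WF ∧ (Y k).Tmp (F.R.N k ^ M))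
    (h : ∀ τ : ℝ, 0 < τ → ∀ᶠ k in uf, k4bPhi F k (F.R.N k ^ τ) p (Y k)) : F.IsAtlas Y p.1 p.2 := by
  refine ⟨⟨hT, fun τ hτ => ?_, fun τ hτ => ?_⟩, fun τ hτ => ?_⟩
  · filter_upwards [h τ hτ, h (τ / 2) (by positivity), hF.2.2 (τ / 2) (by positivity)] with k h1 h2 h3
    refine ⟨h1.2.2.1, ?_⟩
    have hm := h2.2.2.2.2.1
    have hp := kb_L3_rpow_pos F.R k (τ / 2)
    show 1 ≤ ENNReal.ofReal (F.R.N k ^ τ) * (Y k).mass
    calc (1 : ℝ≥0∞) ≤ ENNReal.ofReal (F.R.N k ^ (τ / 2)) * (F.P k).tot := h3.mass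
      _ ≤ ENNReal.ofReal (F.R.N k ^ (τ / 2)) * (ENNReal.ofReal (F.R.N k ^ (τ / 2)) * (Y k).mass) := mul_le_mul_right hm _
      _ = ENNReal.ofReal (F.R.N k ^ τ) * (Y k).mass := by
          rw [← mul_assoc, ← ENNReal.ofReal_mul hp.le, kb_rpow_half]
  · filter_upwards [h τ hτ] with k h1
    obtain ⟨-, -, -, -, -, hq1, hq2⟩ := h1
    have hN := kb_L3_pos F.R k
    have hp := kb_L3_rpow_pos F.R k τ
    constructor
    · have e : F.R.N k ^ (-p.2 - τ) = (F.R.N k ^ τ)⁻¹ * F.R.N k ^ (-p.2) := by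
        rw [← Real.rpow_neg hN.le, ← Real.rpow_add hN]
        congr 1; ring
      rw [e]
      calc (F.R.N k ^ τ)⁻¹ * F.R.N k ^ (-p.2) ≤ (F.R.N k ^ τ)⁻¹ * (F.R.N k ^ τ * (Y k).q) := mul_le_mul_of_nonneg_left hq1 (inv_nonneg.2 hp.le)
        _ = (Y k).q := by rw [← mul_assoc, inv_mul_cancel₀ hp.ne', one_mul]
    · refine hq2.trans (le_of_eq ?_)
      rw [← Real.rpow_add hN]
      congr 1; ring
  · filter_upwards [h τ hτ] with k h1
    exact h1.2.2.2.1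

/-- **L-252-S4B-G4** (~120 l.).  `k4b_atlas_of_phi`; `kp4_narrow_ex` gives `keep, l` with `IsSys (restr ..) r h`, `Narrow (restr ..) l`; `kp4_restr_known`: the restriction is a known atlas.  `h2` (`hr`, `hh`): `l ≤ ell r + ζ`.
Lower bound: for every `τ`, eventually the restricted system has a label `c` (`Big`: its mass is positive, so `C` is nonempty: a sum over an empty type is `0`), `N^{ell r + th - τ} ≤ q²/J_c` (from `h`, labels of `restr` are labels of `Y k`, same `q`, `ch`)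
and `q²/J_c ≤ N^{l + τ}` (`Narrow`, `ChExp` with `e = -l`); so `ell r + th ≤ l + 2τ` (`kb_L3_rpow_le_iff`, `uf_neBot`); `τ → 0` (`le_of_forall_pos_le_add`). -/
theorem k4b_narrow_excl (F : KbEx v) (hF : F.Ok) (kk ell δ ζ th : ℝ) (h2 : KpExcl2 F kk ell δ ζ) (Y : F.Sys) (p : ℝ × ℝ) (hr : 0 ≤ p.1) (hr2 : p.1 ≤ F.L / 2) (hh : p.2 ≤ kk * p.1 + δ)
    (hT : ∃ M : ℝ, ∀ᶠ k in uf, (Y k).WF ∧ (Y k).Tmp (F.R.N k ^ M)) (h : ∀ τ : ℝ, 0 < τ → ∀ᶠ k in uf, k4bPhi2 F ell th k (F.R.N k ^ τ) p (Y k)) : th ≤ ζ := by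
  have := Claimed.Agent.R255.uf_neBot
  have hA : F.IsAtlas Y p.1 p.2 := k4b_atlas_of_phi F hF Y p hT (fun τ hτ => (h τ hτ).mono fun k hk => hk.1)
  obtain ⟨keep, l, hS, hN⟩ := kp4_narrow_ex F hF Y p.1 p.2 hA.1
  have hA' : F.IsAtlas (F.restr Y keep fun _ _ => Set.univ) p.1 p.2 := ⟨hS, kp4_restr_known F Y keep _ F.L hA.2⟩
  have hl : l ≤ ell * p.1 + ζ := h2 _ p.1 p.2 l hr hr2 hA' hN hh
  have hlow : ∀ τ : ℝ, 0 < τ → ell * p.1 + th ≤ l + 2 * τ := by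
    intro τ hτ
    have ev : ∀ᶠ k in uf, ell * p.1 + th ≤ l + 2 * τ := by
      filter_upwards [h τ hτ, hN τ hτ, hS.2.1 1 one_pos] with k a1 a2 a3
      have hne : Nonempty ((F.restr Y keep fun _ _ => Set.univ) k).C := by
        by_contra hcon
        rw [not_nonempty_iff] at hcon
        have hb : 1 ≤ ENNReal.ofReal (F.R.N k ^ (1 : ℝ)) * ((F.restr Y keep fun _ _ => Set.univ) k).mass := a3.2
        have h0 : ((F.restr Y keep fun _ _ => Set.univ) k).mass = 0 := by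
          unfold KbSys.mass
          exact Finset.sum_of_isEmpty _
        rw [h0, mul_zero] at hb
        exact absurd hb (by norm_num)
      obtain ⟨c⟩ := hne
      have b1 : F.R.N k ^ (ell * p.1 + th) ≤ F.R.N k ^ τ * ((Y k).q ^ 2 / ((Y k).ch (c : keep k).1).J) := a1.2 (c : keep k).1
      have b2 : (Y k).q ^ 2 / ((Y k).ch (c : keep k).1).J ≤ F.R.N k ^ (- -l + τ) := (a2 c).2
      have b3 : F.R.N k ^ (ell * p.1 + th) ≤ F.R.N k ^ (τ + (- -l + τ)) := by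
        rw [Real.rpow_add (kb_res_pos F.R k) τ]
        exact b1.trans (mul_le_mul_of_nonneg_left b2 (kb_L3_rpow_pos F.R k _).le)
      have := (kb_L3_rpow_le_iff F.R k).1 b3
      linarith
    exact ev.exists.choose_spec
  have h3 : ell * p.1 + th ≤ l := by
    refine le_of_forall_pos_le_add fun ε hε => ?_
    have := hlow (ε / 2) (by positivity)
    linarith
  linarith

/-- **L-252-S4B-G5** (~40 l.): closed (`isClosed_le`, continuity of `fst`, `snd`) and bounded (inside `Set.Icc (0,0) (L/2, |kk| L/2 + |c|)`; `isCompact_Icc.of_isClosed_subset`). -/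
theorem k4b_compact (L kk c : ℝ) : IsCompact {p : ℝ × ℝ | 0 ≤ p.1 ∧ p.1 ≤ L / 2 ∧ 0 ≤ p.2 ∧ p.2 ≤ kk * p.1 + c} := by
  have hcl : IsClosed {p : ℝ × ℝ | 0 ≤ p.1 ∧ p.1 ≤ L / 2 ∧ 0 ≤ p.2 ∧ p.2 ≤ kk * p.1 + c} := by
    have h1 : IsClosed {p : ℝ × ℝ | 0 ≤ p.1} := isClosed_le continuous_const continuous_fst
    have h2 : IsClosed {p : ℝ × ℝ | p.1 ≤ L / 2} := isClosed_le continuous_fst continuous_const
    have h3 : IsClosed {p : ℝ × ℝ | 0 ≤ p.2} := isClosed_le continuous_const continuous_snd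
    have h4 : IsClosed {p : ℝ × ℝ | p.2 ≤ kk * p.1 + c} :=
      isClosed_le continuous_snd ((continuous_const.mul continuous_fst).add continuous_const)
    exact h1.inter (h2.inter (h3.inter h4))
  refine (isCompact_Icc (a := ((0 : ℝ), (0 : ℝ))) (b := (L / 2, |kk| * (L / 2) + |c|))).of_isClosed_subset hcl ?_
  rintro ⟨x, y⟩ ⟨h1, h2, h3, h4⟩
  simp only at h1 h2 h3 h4
  refine ⟨⟨h1, h3⟩, ⟨h2, ?_⟩⟩
  show y ≤ |kk| * (L / 2) + |c|
  have a1 : kk * x ≤ |kk| * x := mul_le_mul_of_nonneg_right (le_abs_self _) h1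
  have a2 : |kk| * x ≤ |kk| * (L / 2) := mul_le_mul_of_nonneg_left h2 (abs_nonneg _)
  have a3 := le_abs_self c
  linarith

/-- **L-252-S4B-G6** (~80 l.).  Natural powers (induction with `kb_subp_mul`, `kb_subp_one`), `kb_subp_log`, `kb_subp_mono` (`1 ≤ log N` eventually: `k4b_log_tendsto`), `kb_subp_max`. -/
theorem k4b_subp_Ks (R : KbRes) (Kp : ℕ → ℝ) (hK : KbSubP R Kp) (n : ℕ) : KbSubP R fun k => max ((Kp k * Real.log (R.N k)) ^ n) (Real.log (R.N k)) := by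
  have hlog1 : ∀ᶠ k in uf, 1 ≤ Real.log (R.N k) := (Real.tendsto_log_atTop.comp R.lim).eventually_ge_atTop 1
  have hlog : KbSubP R fun k => Real.log (R.N k) := by
    refine kb_subp_mono R (kb_subp_log R) ?_
    filter_upwards [hlog1] with k hk
    exact ⟨hk, by linarith⟩
  have hpow : ∀ m : ℕ, KbSubP R fun k => (Kp k * Real.log (R.N k)) ^ m := by
    intro m
    induction m with
    | zero => simpa using kb_subp_one R
    | succ m ih =>
      have := kb_subp_mul R ih (kb_subp_mul R hK hlog)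
      simpa [pow_succ] using this
  exact kb_subp_max R (hpow n) hlog

/-- **L-252-S4B-G7** (~90 l.).  `h := - Real.logb N q`, `q = kbQ n = (1/2)^n ∈ (0, 1]`: `Real.rpow_logb`, `Real.logb_nonpos`.  `(D.sam k).Atl Y r` unfolds to the five fields (`K4bPre.sam`, `KpSam.Ks`, `KpSam.aL`: all `rfl`);
`Geo`, `Known` are monotone in the slack (field by field; `0 < B` from `hP`), `ENNReal.ofReal_le_ofReal`. -/
theorem k4b_phi_of_atl (D : K4bPre v) (k : ℕ) (K : ℝ) (h1 : 1 ≤ K) (hK1 : (D.Kp k * Real.log (D.F.R.N k)) ^ D.n ≤ K) (hK2 : Real.log (D.F.R.N k) ≤ K) (hP : (D.F.P k).WF)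
    (Y : KbSys (D.F.P k)) (r : ℝ) (hatl : (D.sam k).Atl Y r) : ∃ h : ℝ, 0 ≤ h ∧ Y.q = D.F.R.N k ^ (-h) ∧ k4bPhi D.F k K (r, h) Y := by
  have hq0 : 0 < Y.q := by unfold KbSys.q kbQ; positivity
  have hq1 : Y.q ≤ 1 := by
    unfold KbSys.q kbQ
    exact pow_le_one₀ (by norm_num) (by norm_num)
  have hN := kb_L3_pos D.F.R k
  have hN1 := kb_L3_one_lt D.F.R k
  have hq : Y.q = D.F.R.N k ^ (-(-Real.logb (D.F.R.N k) Y.q)) := by
    rw [neg_neg, Real.rpow_logb hN hN1.ne' hq0]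
  have hgeo : Y.Geo ((D.Kp k * Real.log (D.F.R.N k)) ^ D.n) (D.F.R.N k ^ (-r)) := hatl.geo
  have hkn : Y.Known ((D.F.P k).hid (D.F.R.N k ^ (-D.F.L))) ((D.Kp k * Real.log (D.F.R.N k)) ^ D.n) := hatl.known
  have hmass : (D.F.P k).tot ≤ ENNReal.ofReal (Real.log (D.F.R.N k)) * Y.mass := hatl.mass
  have hth := kb_L3_rpow_pos D.F.R k (-r)
  refine ⟨-Real.logb (D.F.R.N k) Y.q, neg_nonneg.2 (Real.logb_nonpos hN1 hq0.le hq1), hq, h1, hP, ?_, ?_,
    hmass.trans (mul_le_mul_left (ENNReal.ofReal_le_ofReal hK2) _), ?_, ?_⟩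
  · refine ⟨fun d => (hgeo.size d).trans (mul_le_mul_of_nonneg_left hK1 hq0.le), fun d l hl t ht => (hgeo.box d l hl t ht).trans hK1,
      fun d l hl t ht => (hgeo.val d l hl t ht).trans (mul_le_mul_of_nonneg_right hK1 hth.le),
      fun d l hl t ht => (hgeo.dw d l hl t ht).trans (mul_le_mul_of_nonneg_right hK1 (hP.B_pos _).le),
      fun d x hx => (hgeo.dw_low d x hx).trans (mul_le_mul_of_nonneg_right hK1 (abs_nonneg _)),
      fun d t y w => (hgeo.dww d t y w).trans (mul_le_mul_of_nonneg_right hK1 (by positivity))⟩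
  · obtain ⟨Lst, l1, l2, l3⟩ := hkn
    exact ⟨Lst, fun γ d o => (l1 γ d o).trans hK1, l2, l3⟩
  · show D.F.R.N k ^ (-(-Real.logb (D.F.R.N k) Y.q)) ≤ K * Y.q
    rw [← hq]
    exact le_mul_of_one_le_left hq0.le h1
  · show Y.q ≤ K * D.F.R.N k ^ (-(-Real.logb (D.F.R.N k) Y.q))
    rw [← hq]
    exact le_mul_of_one_le_left hq0.le h1

/-- **L a03:finite-guard over the Base** -/
theorem k4b_guard_ev (D : K4bPre v) (p : KpPrm) (hp : p.Ok) (hF : D.F.Ok) (hK : KbSubP D.F.R D.Kp) (ζ δ : ℝ) (h1 : KpExcl1 D.F p.k ζ)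
    (h2 : v = KbVer.two → KpExcl2 D.F p.k p.ell δ ζ) (hζ : ζ < D.th) (hδ : D.thc ≤ δ) : ∀ᶠ k in uf, (D.sam k).Guard p := by
  have hKs := k4b_subp_Ks D.F.R D.Kp hK D.n
  have hL : 0 < D.F.L := hF.1
  have g1 := k4b_guard_tmp D.F.R (fun k => k4bY0 (D.F.P k)) (fun k Qb Y => Y.WF ∧ Y.Tmp Qb) (k4bPhi D.F) (fun k a b q Y => k4b_phi_mono D.F k a b q Y) 1
    (fun k a q q' σ Y => k4b_phi_stab D.F k a q q' σ Y) _ (k4b_compact D.F.L p.k (-D.th)) (by
      rintro q ⟨hr, hr2, -, hh⟩ ⟨Y, hT, hΦ⟩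
      have := h1 Y q.1 q.2 hr (by linarith) (k4b_atlas_of_phi D.F hF Y q hT hΦ)
      linarith) D.Mg _ hKs
  have g2 : v = KbVer.two → ∀ᶠ k in uf, ¬ ∃ q ∈ {q : ℝ × ℝ | 0 ≤ q.1 ∧ q.1 ≤ D.F.L / 2 ∧ 0 ≤ q.2 ∧ q.2 ≤ p.k * q.1 + D.thc}, ∃ Y : KbSys (D.F.P k),
      (Y.WF ∧ Y.Tmp (D.F.R.N k ^ D.Mg)) ∧ k4bPhi2 D.F p.ell D.th k (max ((D.Kp k * Real.log (D.F.R.N k)) ^ D.n) (Real.log (D.F.R.N k))) q Y := by
    intro hv
    exact k4b_guard_tmp D.F.R (fun k => k4bY0 (D.F.P k)) (fun k Qb Y => Y.WF ∧ Y.Tmp Qb) (k4bPhi2 D.F p.ell D.th) (fun k a b q Y => k4b_phi2_mono D.F _ _ k a b q Y) (1 + p.ell)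
      (fun k a q q' σ Y => k4b_phi2_stab D.F _ _ hp.ell_nonneg k a q q' σ Y) _ (k4b_compact D.F.L p.k D.thc) (by
        rintro q ⟨hr, hr2, -, hh⟩ ⟨Y, hT, hΦ⟩
        have := k4b_narrow_excl D.F hF p.k p.ell δ ζ D.th (h2 hv) Y q hr hr2 (by linarith) hT hΦ
        linarith) D.Mg _ hKs
  have g2' : ∀ᶠ k in uf, v = KbVer.two → ¬ ∃ q ∈ {q : ℝ × ℝ | 0 ≤ q.1 ∧ q.1 ≤ D.F.L / 2 ∧ 0 ≤ q.2 ∧ q.2 ≤ p.k * q.1 + D.thc}, ∃ Y : KbSys (D.F.P k),
      (Y.WF ∧ Y.Tmp (D.F.R.N k ^ D.Mg)) ∧ k4bPhi2 D.F p.ell D.th k (max ((D.Kp k * Real.log (D.F.R.N k)) ^ D.n) (Real.log (D.F.R.N k))) q Y := by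
    by_cases hv : v = KbVer.two
    · exact (g2 hv).mono fun k hk _ => hk
    · exact Eventually.of_forall fun k h => absurd h hv
  obtain ⟨M, hM⟩ := hF.2.1
  filter_upwards [g1, g2', hM, hKs 1 one_pos] with k a1 a2 a3 a4
  intro Y r hr hr2 hatl
  obtain ⟨h, hh0, hq, hΦ⟩ := k4b_phi_of_atl D k _ a4.1 (le_max_left _ _) (le_max_right _ _) a3.1 Y r hatl
  have hq' : Y.q = D.F.R.N k ^ (-h) := hq
  constructor
  · by_contra hcon
    have hle : D.F.R.N k ^ (-(p.k * r - D.th)) ≤ D.F.R.N k ^ (-h) := by rw [← hq']; exact not_lt.1 hcon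
    have := (kb_L3_rpow_le_iff D.F.R k).1 hle
    exact a1 ⟨(r, h), ⟨hr, hr2, hh0, by show h ≤ p.k * r + -D.th; linarith⟩, Y, ⟨hatl.wf, hatl.tmp⟩, hΦ⟩
  · intro hv hch
    by_contra hcon
    push Not at hcon
    have hle : D.F.R.N k ^ (-(p.k * r + D.thc)) ≤ D.F.R.N k ^ (-h) := by rw [← hq']; exact hch
    have := (kb_L3_rpow_le_iff D.F.R k).1 hle
    refine a2 hv ⟨(r, h), ⟨hr, hr2, hh0, by show h ≤ p.k * r + D.thc; linarith⟩, Y, ⟨hatl.wf, hatl.tmp⟩, hΦ, fun c => ?_⟩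
    have h0 : 0 ≤ Y.q ^ 2 / (Y.ch c).J := div_nonneg (sq_nonneg _) (abs_nonneg _)
    exact (hcon c).trans (le_mul_of_one_le_left h0 a4.1)

/-! ## 3. The diagonal -/

/-- the three numerical fields of `KpSam.Ok` hold eventually along the exact sequence -/
theorem k4b_diag_ev (D : K4bPre v) (hK : KbSubP D.F.R D.Kp) (heps : 0 < D.eps) (τ : ℝ) (hτ : 0 < τ) :
    ∀ᶠ k in uf, (D.sam k).Ks ≤ ((D.sam k).N0 ^ (D.sam k).eps) ^ τ ∧ ((D.sam k).G : ℝ) + 1 ≤ τ * Real.log (D.sam k).N0 ∧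
      (D.sam k).Kp * Real.log (D.sam k).N0 ≤ τ * (D.sam k).N0 := by
  obtain ⟨m, hm⟩ := exists_nat_one_div_lt hτ
  filter_upwards [k4b_subp_Ks D.F.R D.Kp hK D.n (D.eps * τ) (by positivity), k4b_num_ev D.F.R D.Kp hK m D.eps ((D.G : ℝ) + 1) heps] with k h1 h2
  have hN : 0 < D.F.R.N k := kb_res_pos D.F.R k
  have hlog : 0 < Real.log (D.F.R.N k) := by linarith [h2.one_le_log]
  refine ⟨?_, ?_, ?_⟩
  · show (D.Kp k * Real.log (D.F.R.N k)) ^ D.n ≤ (D.F.R.N k ^ D.eps) ^ τ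
    rw [← Real.rpow_mul hN.le]
    exact (le_max_left _ _).trans h1.2
  · show (D.G : ℝ) + 1 ≤ τ * Real.log (D.F.R.N k)
    have := h2.grid
    rw [div_le_iff₀ hlog] at this
    exact this.trans (mul_le_mul_of_nonneg_right hm.le hlog.le)
  · show D.Kp k * Real.log (D.F.R.N k) ≤ τ * D.F.R.N k
    have := h2.mass
    rw [div_le_iff₀ hN] at this
    exact this.trans (mul_le_mul_of_nonneg_right hm.le hN.le)

theorem k4b_ntv_mono (P : KbPb v) (hP : P.WF) {K K' : ℝ} (h : P.Ntv K) (hK : K ≤ K') : P.Ntv K' where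
  base := fun γ l hl t ht => (h.base γ l hl t ht).trans hK
  sig := fun γ l hl t ht => (h.sig γ l hl t ht).trans hK
  dw := fun γ l hl t ht => (h.dw γ l hl t ht).trans (mul_le_mul_of_nonneg_right hK (hP.B_pos γ).le)
  dw_low := fun γ x hx => (h.dw_low γ x hx).trans (mul_le_mul_of_nonneg_right hK (abs_nonneg _))
  dww := fun γ t y w => (h.dww γ t y w).trans (mul_le_mul_of_nonneg_right hK (by have := hP.B_pos γ; positivity))
  mass := h.mass.trans (by gcongr)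

theorem k4b_geo_mono {P : KbPb v} (Y : KbSys P) (hP : P.WF) {K K' a : ℝ} (h : Y.Geo K a) (hK : K ≤ K') (ha : 0 ≤ a) : Y.Geo K' a where
  size := fun c => (h.size c).trans (mul_le_mul_of_nonneg_left hK (by unfold KbSys.q kbQ; positivity))
  box := fun c l hl t ht => (h.box c l hl t ht).trans hK
  val := fun c l hl t ht => (h.val c l hl t ht).trans (mul_le_mul_of_nonneg_right hK ha)
  dw := fun c l hl t ht => (h.dw c l hl t ht).trans (mul_le_mul_of_nonneg_right hK (hP.B_pos _).le)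
  dw_low := fun c x hx => (h.dw_low c x hx).trans (mul_le_mul_of_nonneg_right hK (abs_nonneg _))
  dww := fun c t y w => (h.dww c t y w).trans (mul_le_mul_of_nonneg_right hK (by have := hP.B_pos (Y.wd c); positivity))

/-- **L-252-S4B-M1** (~200 l.).  `KpTan.Ok` is monotone in the tolerance.  Field by field; `N^τ ≤ N^τ'`, `N^{-1/τ} ≤ N^{-1/τ'}` (`Real.rpow_le_rpow_of_exponent_le`, `2 ≤ N`; `one_div_le_one_div_of_le`, `neg_div`), so the ranges of `w, β` shrink and the slacks grow;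
`Ntv`, `Geo` are monotone in the slack (`0 < B`, `0 ≤ q`, `0 ≤ a`); `ENNReal.ofReal_le_ofReal`, `mul_le_mul_right'`/`gcongr`; `ActOk`: only `mesh` depends on `β₀`. -/
theorem k4b_tan_mono (X : KpTan v) (p : KpPrm) (τ τ' : ℝ) (hτ : 0 < τ) (h : τ ≤ τ') (hX : X.Ok p τ) : X.Ok p τ' := by
  have hN := hX.N_two
  have hN1 : (1 : ℝ) ≤ X.N := by linarith
  have hN0 : (0 : ℝ) < X.N := by linarith
  have hτ' : 0 < τ' := hτ.trans_le h
  have hK : X.N ^ τ ≤ X.N ^ τ' := Real.rpow_le_rpow_of_exponent_le hN1 h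
  have hK0 : 0 ≤ X.N ^ τ := (Real.rpow_pos_of_pos hN0 _).le
  have hinv : 1 / τ' ≤ 1 / τ := one_div_le_one_div_of_le hτ h
  have hR : X.N ^ (-1 / τ) ≤ X.N ^ (-1 / τ') := by
    apply Real.rpow_le_rpow_of_exponent_le hN1
    rw [neg_div, neg_div]
    linarith
  have hq : ∀ m, 0 ≤ (X.Q m).q := fun m => by unfold KbSys.q kbQ; positivity
  have hlo : ∀ e : ℝ, X.N ^ (e - τ') ≤ X.N ^ (e - τ) := fun e => Real.rpow_le_rpow_of_exponent_le hN1 (by linarith)
  have hhi : ∀ e : ℝ, X.N ^ (e + τ) ≤ X.N ^ (e + τ') := fun e => Real.rpow_le_rpow_of_exponent_le hN1 (by linarith)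
  have hJ : ∀ m ≤ X.G, ∀ c, 0 ≤ ((X.Q m).ch c).J := fun m hm c =>
    le_trans (mul_nonneg (pow_nonneg (hq m) _) (Real.rpow_pos_of_pos hN0 _).le) (hX.J_lo m hm c)
  exact
  { N_two := hN
    wf := hX.wf
    ntv := k4b_ntv_mono _ hX.wf hX.ntv hK
    B_one := hX.B_one
    succ := fun γ => (hX.succ γ).imp id fun h1 => h1.trans (by gcongr)
    dep_zero := ⟨hX.dep_zero.1, hX.dep_zero.2.trans h⟩
    dep_step := fun m hm => ⟨(hX.dep_step m hm).1, (hX.dep_step m hm).2.trans (by linarith)⟩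
    dep_end := hinv.trans hX.dep_end
    sys_wf := hX.sys_wf
    geo := fun m hm => k4b_geo_mono _ hX.wf (hX.geo m hm) hK (Real.rpow_pos_of_pos hN0 _).le
    q_lo := fun m hm => (hlo _).trans (hX.q_lo m hm)
    q_hi := fun m hm => (hX.q_hi m hm).trans (hhi _)
    J_lo := fun m hm c => (mul_le_mul_of_nonneg_left (hlo _) (pow_nonneg (hq m) _)).trans (hX.J_lo m hm c)
    J_hi := fun m hm c => (hX.J_hi m hm c).trans (mul_le_mul_of_nonneg_left (hhi _) (pow_nonneg (hq m) _))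
    full := fun m hm c => (hX.full m hm c).trans (mul_le_mul_of_nonneg_right hK (by unfold kbMn; positivity))
    major := fun hl m hm c => (hX.major hl m hm c).trans (mul_le_mul_of_nonneg_right hK
      (Finset.sum_nonneg fun i _ => Finset.sum_nonneg fun k _ => by split_ifs <;> positivity))
    nu_lo := fun m hm c => (ENNReal.ofReal_le_ofReal (mul_le_mul_of_nonneg_right (hlo _) (hJ m hm c))).trans (hX.nu_lo m hm c)
    nu_hi := fun m hm c => (hX.nu_hi m hm c).trans (ENNReal.ofReal_le_ofReal (mul_le_mul_of_nonneg_right (hhi _) (hJ m hm c)))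
    nest := hX.nest
    path := hX.path
    cover := hX.cover
    cap_w := fun γ w hw hw1 x₀ Bz hBz => (hX.cap_w γ w (hR.trans hw) hw1 x₀ Bz hBz).trans (by
      have : 0 ≤ w := (Real.rpow_pos_of_pos hN0 _).le.trans hw
      gcongr)
    cap_X := fun γ w hw hw1 x₀ Bz hBz => (hX.cap_X γ w (hR.trans hw) hw1 x₀ Bz hBz).trans (by
      have : 0 ≤ w := (Real.rpow_pos_of_pos hN0 _).le.trans hw
      gcongr)
    pal_prob := hX.pal_prob
    pal_cap := fun γ w hw hw1 u₀ => (hX.pal_cap γ w (hR.trans hw) hw1 u₀).trans (by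
      have : 0 ≤ w := (Real.rpow_pos_of_pos hN0 _).le.trans hw
      gcongr)
    ref_sum := hX.ref_sum
    ref_ge := hX.ref_ge
    ref_le := fun e => (hX.ref_le e).trans (by
      have := hq X.G
      gcongr)
    joint := fun β hβ hβ1 e b => (hX.joint β (hR.trans hβ) hβ1 e b).trans (by gcongr)
    act :=
      { mono := hX.act.mono
        pair := hX.act.pair
        map := hX.act.map
        base := hX.act.base
        two := hX.act.two
        path := hX.act.path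
        mesh := fun β hβ hβ1 => hX.act.mesh β (hR.trans hβ) hβ1 } }

/-- **L-252-S4B-M2** (~80 l.).  `KpSam.Ok` is monotone in the tolerance: `k4b_tan_mono`; `0 < eps`; `1 ≤ N₀^eps` (`hs.tan.N_two`); `0 < log N₀` (from `nodes`), `0 < N₀` (from `small`, `Kp_one`). -/
theorem k4b_sam_mono (s : KpSam v) (p : KpPrm) (τ τ' : ℝ) (hτ : 0 < τ) (h : τ ≤ τ') (hs : s.Ok p τ) : s.Ok p τ' := by
  have heps := hs.eps_pos
  have hN : (2 : ℝ) ≤ s.N0 ^ s.eps := hs.tan.N_two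
  have hlog : 0 < Real.log s.N0 := by
    have h1 := hs.nodes
    have h2 : (0 : ℝ) ≤ s.G := Nat.cast_nonneg _
    by_contra hc
    push Not at hc
    have := mul_nonpos_of_nonneg_of_nonpos hτ.le hc
    linarith
  have hN0 : 0 < s.N0 := by
    have h1 := hs.small
    have h2 := hs.Kp_one
    have h3 : 0 < s.Kp * Real.log s.N0 := by positivity
    by_contra hc
    push Not at hc
    have := mul_nonpos_of_nonneg_of_nonpos hτ.le hc
    linarith
  exact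
  { tan := k4b_tan_mono s.tan p τ τ' hτ h hs.tan
    guard := hs.guard
    eps_pos := heps
    eps_le := hs.eps_le.trans h
    Lr_lo := hs.Lr_lo
    Lr_hi := hs.Lr_hi
    win := hs.win.trans h
    th_pos := hs.th_pos
    th_le := hs.th_le.trans (mul_le_mul_of_nonneg_right h heps.le)
    thc_pos := hs.thc_pos
    thc_le := hs.thc_le.trans (mul_le_mul_of_nonneg_right h heps.le)
    stage := (one_div_le_one_div_of_le hτ h).trans hs.stage
    slack := hs.slack.trans (Real.rpow_le_rpow_of_exponent_le (by linarith) h)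
    nodes := hs.nodes.trans (mul_le_mul_of_nonneg_right h hlog.le)
    small := hs.small.trans (mul_le_mul_of_nonneg_right h hN0.le)
    Kp_one := hs.Kp_one
    ntv := hs.ntv
    tmp := hs.tmp
    geo := hs.geo
    known := hs.known
    sys_tmp := hs.sys_tmp
    full := hs.full
    major := hs.major
    cheap := hs.cheap
    Mp_one := hs.Mp_one
    Mg_ge := hs.Mg_ge }

/-- **THE EXIT ASKED FROM S4C**: for every tolerance there is ONE stage (an exact problem with its prepared path data) whose samples are `Ok` as soon as they are guarded and satisfy the three numerical conditions -/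
def K4bHubPre : Prop :=
  ∀ (v : KbVer) (S η : ℝ) (p : KpPrm), 0 < η → p.Ok → p.S = S → (v = KbVer.one → p.ell = 0) → KpCrit v S η p → ∀ τ : ℝ, 0 < τ → τ ≤ 1 →
    ∃ (D : K4bPre v) (ζ δ : ℝ), D.F.Ok ∧ KbSubP D.F.R D.Kp ∧ KpExcl1 D.F p.k ζ ∧ (v = KbVer.two → KpExcl2 D.F p.k p.ell δ ζ) ∧ ζ < D.th ∧ D.thc ≤ δ ∧ 0 < D.eps ∧
      ∀ᶠ k in uf, (D.sam k).Guard p → (D.sam k).Ks ≤ ((D.sam k).N0 ^ (D.sam k).eps) ^ τ → ((D.sam k).G : ℝ) + 1 ≤ τ * Real.log (D.sam k).N0 →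
        (D.sam k).Kp * Real.log (D.sam k).N0 ≤ τ * (D.sam k).N0 → (D.sam k).Ok p τ

/-- what is asked from S4C for ONE triple `(v, p)`, without any reference to the way the stages were obtained -/
def K4bStages (v : KbVer) (p : KpPrm) : Prop :=
  ∀ τ : ℝ, 0 < τ → τ ≤ 1 →
    ∃ (D : K4bPre v) (ζ δ : ℝ), D.F.Ok ∧ KbSubP D.F.R D.Kp ∧ KpExcl1 D.F p.k ζ ∧ (v = KbVer.two → KpExcl2 D.F p.k p.ell δ ζ) ∧ ζ < D.th ∧ D.thc ≤ δ ∧ 0 < D.eps ∧
      ∀ᶠ k in uf, (D.sam k).Guard p → (D.sam k).Ks ≤ ((D.sam k).N0 ^ (D.sam k).eps) ^ τ → ((D.sam k).G : ℝ) + 1 ≤ τ * Real.log (D.sam k).N0 →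
        (D.sam k).Kp * Real.log (D.sam k).N0 ≤ τ * (D.sam k).N0 → (D.sam k).Ok p τ

/-- **the guarded tangent diagonal, hypothesis-free core** (order of the choices: stage → exact problem and path → complexity exponents → sample).
Use THIS form if the hypotheses of `KpHubSam` change (e.g. the additional `v = one → p.ell = 0`). -/
theorem k4b_hub_sam_core (v : KbVer) (p : KpPrm) (hp : p.Ok) (h : K4bStages v p) : ∃ (R : KbRes) (s : ℕ → KpSam v), KpSamSeqOk R s p := by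
  have := Claimed.Agent.R255.uf_neBot
  have hst : ∀ n : ℕ, ∃ s : KpSam v, s.Ok p (1 / ((n : ℝ) + 1)) ∧ (n : ℝ) ≤ s.N0 ^ s.eps := by
    intro n
    obtain ⟨D, ζ, δ, hF, hK, h1, h2, hζ, hδ, heps, hev⟩ := h (1 / ((n : ℝ) + 1)) (by positivity)
      (by rw [div_le_one (by positivity)]; linarith [(Nat.cast_nonneg n : (0 : ℝ) ≤ n)])
    have e1 := k4b_guard_ev D p hp hF hK ζ δ h1 h2 hζ hδ
    have e2 := k4b_diag_ev D hK heps (1 / ((n : ℝ) + 1)) (by positivity)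
    have e3 : ∀ᶠ k in uf, (n : ℝ) ≤ D.F.R.N k ^ D.eps := (kb_rpow_tendsto D.F.R heps).eventually_ge_atTop _
    obtain ⟨k, hk⟩ := (hev.and (e1.and (e2.and e3))).exists
    exact ⟨D.sam k, hk.1 hk.2.1 hk.2.2.1.1 hk.2.2.1.2.1 hk.2.2.1.2.2, hk.2.2.2⟩
  choose s hs hN using hst
  refine ⟨⟨fun n => (s n).N0 ^ (s n).eps, fun n => (hs n).tan.N_two, tendsto_atTop_mono hN k4b_nat_tendsto⟩, s, fun n => rfl, fun τ hτ => ?_⟩
  filter_upwards [k4b_inv_tendsto.eventually (eventually_le_nhds hτ)] with n hn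
  exact k4b_sam_mono (s n) p _ _ (by positivity) hn (hs n)

/-- **the guarded tangent diagonal** -/
theorem k4b_hub_sam (h : K4bHubPre) : KpHubSam :=
  fun v S η p hη hp hpS hv1 hc => k4b_hub_sam_core v p hp (h v S η p hη hp hpS hv1 hc)

end

end Claimed.Agent.R252
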